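import Mathlib

/-!
P196: a finitely presented group with a thin (for example linearly growing) Schreier graph
has a nontrivial finite quotient.
-/

namespace Vale.Agent.P196

open Subgroup

/-- The ball of radius `n` about `x` in the Schreier graph: the points `l.prod • x` for words `l`
of length at most `n` in the elements of `S` and their inverses. -/
def ball {G : Type*} [Group G] {Ω : Type*} [MulAction G Ω] (S : Set G) (x : Ω) (n : ℕ) : Set Ω :=
  {y | ∃ l : List G, l.length ≤ n ∧ (∀ a ∈ l, a ∈ S ∨ a⁻¹ ∈ S) ∧ l.prod • x = y}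

/-- A nontrivial finite quotient, given by its kernel. -/
def HasFiniteQuotient (G : Type*) [Group G] : Prop :=
  ∃ N : Subgroup G, N.Normal ∧ N.FiniteIndex ∧ N ≠ ⊤

theorem hasFiniteQuotient_of_hom {G : Type*} [Group G] {P : Type*} [Group P] [Finite P]
    (f : G →* P) (h : ∃ g, f g ≠ 1) : HasFiniteQuotient G := by
  obtain ⟨g, hg⟩ := h
  refine ⟨f.ker, inferInstance, inferInstance, fun e => hg ?_⟩
  exact f.mem_ker.1 (e ▸ mem_top g)

section Balls

variable {G : Type*} [Group G] {Ω : Type*} [MulAction G Ω] {S : Set G} {x : Ω}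

theorem ball_mono {m n : ℕ} (h : m ≤ n) : ball S x m ⊆ ball S x n := by
  rintro y ⟨l, h1, h2, h3⟩
  exact ⟨l, h1.trans h, h2, h3⟩

theorem ball_smul {n : ℕ} {y : Ω} (hy : y ∈ ball S x n) {l : List G}
    (hl : ∀ a ∈ l, a ∈ S ∨ a⁻¹ ∈ S) : l.prod • y ∈ ball S x (n + l.length) := by
  obtain ⟨l', h1, h2, rfl⟩ := hy
  refine ⟨l ++ l', by simp; omega, fun a ha => ?_, by rw [List.prod_append, mul_smul]⟩
  rcases List.mem_append.1 ha with ha | ha
  exacts [hl a ha, h2 a ha]

theorem ball_succ (n : ℕ) : ball S x (n + 1) ⊆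
    ball S x n ∪ ⋃ a ∈ S ∪ {a | a⁻¹ ∈ S}, (fun y => a • y) '' ball S x n := by
  rintro y ⟨l, h1, h2, rfl⟩
  cases l with
  | nil => exact .inl ⟨[], by simp, by simp, rfl⟩
  | cons a l =>
    right
    simp only [Set.mem_iUnion, Set.mem_image]
    refine ⟨a, h2 a (by simp), l.prod • x, ⟨l, by simpa using h1, fun b hb => h2 b (by simp [hb]),
      rfl⟩, ?_⟩
    rw [List.prod_cons, mul_smul]

theorem ball_finite (hS : S.Finite) (n : ℕ) : (ball S x n).Finite := by
  induction n with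
  | zero =>
    refine (Set.finite_singleton x).subset ?_
    rintro y ⟨l, h1, -, rfl⟩
    rw [List.length_eq_zero_iff.1 (Nat.le_zero.1 h1)]
    simp
  | succ n ih =>
    refine (ih.union (Set.Finite.biUnion (hS.union ?_) fun a _ => ih.image _)).subset (ball_succ n)
    exact hS.inv

theorem exists_word (hS : closure S = ⊤) (g : G) :
    ∃ l : List G, (∀ a ∈ l, a ∈ S ∨ a⁻¹ ∈ S) ∧ l.prod = g :=
  let h : g ∈ (closure S).toSubmonoid := by rw [hS]; exact mem_top g
  Submonoid.exists_list_of_mem_closure (s := S ∪ S⁻¹) (by rwa [← closure_toSubmonoid])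

theorem exists_ball (hS : closure S = ⊤) {y : Ω} (hy : y ∈ MulAction.orbit G x) :
    ∃ n, y ∈ ball S x n := by
  obtain ⟨g, rfl⟩ := hy
  obtain ⟨l, hl, rfl⟩ := exists_word hS g
  exact ⟨_, l, le_rfl, hl, rfl⟩

theorem ball_stable {n : ℕ} (h : ball S x (n + 1) ⊆ ball S x n) (m : ℕ) :
    ball S x m ⊆ ball S x n := by
  induction m with
  | zero => exact ball_mono (Nat.zero_le n)
  | succ m ih =>
    intro y hy
    rcases ball_succ m hy with hy | hy
    · exact ih hy
    · simp only [Set.mem_iUnion, Set.mem_image] at hy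
      obtain ⟨a, ha, z, hz, rfl⟩ := hy
      have := ball_smul (ih hz) (l := [a]) (by simpa using ha)
      exact h (by simpa using this)

end Balls

section Periodise

universe w

variable {G : Type*} [Group G] {Ω : Type w} [MulAction G Ω] {k : ℕ} (a : Fin k → G)

/-- an element which is a generator or the inverse of one -/
def IsGen (g : G) : Prop := ∃ s, g = a s ∨ g = (a s)⁻¹

/-- two windows of height `2 L` in the orbit, `d` apart, with the same pattern -/
structure Match (O : Set Ω) (h : Ω → ℕ) (c L d : ℕ) (φ ψ : Ω → Ω) : Prop where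
  hφ : ∀ y ∈ O, c < h y + L → h y ≤ c + L → φ y ∈ O ∧ h (φ y) = h y + d ∧ ψ (φ y) = y
  hψ : ∀ y ∈ O, c + d < h y + L → h y ≤ c + d + L →
    ψ y ∈ O ∧ h (ψ y) + d = h y ∧ φ (ψ y) = y
  cφ : ∀ g, IsGen a g → ∀ y ∈ O, c < h y + L → h y ≤ c + L → c < h (g • y) + L →
    h (g • y) ≤ c + L → φ (g • y) = g • φ y
  cψ : ∀ g, IsGen a g → ∀ y ∈ O, c + d < h y + L → h y ≤ c + d + L → c + d < h (g • y) + L →
    h (g • y) ≤ c + d + L → ψ (g • y) = g • ψ y

variable {a}

/-- folding the strip between two matched windows -/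
def fold (h : Ω → ℕ) (c d : ℕ) (φ ψ : Ω → Ω) (y : Ω) : Ω :=
  if h y ≤ c then φ y else if c + d < h y then ψ y else y

theorem fold_mid {h : Ω → ℕ} {c d : ℕ} {φ ψ : Ω → Ω} {y : Ω} (h1 : c < h y)
    (h2 : h y ≤ c + d) : fold h c d φ ψ y = y := by
  rw [fold, if_neg (by omega), if_neg (by omega)]

variable {O : Set Ω} {h : Ω → ℕ} {c L d T : ℕ} {φ ψ : Ω → Ω}

theorem fold_mem (hm : Match a O h c L d φ ψ) (hd : 2 * L < d) {y : Ω} (hy : y ∈ O)
    (h1 : c < h y + L) (h2 : h y ≤ c + d + L) :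
    fold h c d φ ψ y ∈ O ∧ c < h (fold h c d φ ψ y) ∧ h (fold h c d φ ψ y) ≤ c + d := by
  rcases le_or_gt (h y) c with hc | hc
  · obtain ⟨u1, u2, -⟩ := hm.hφ y hy h1 (by omega)
    rw [fold, if_pos hc]
    exact ⟨u1, by omega, by omega⟩
  rcases le_or_gt (h y) (c + d) with hd' | hd'
  · rw [fold_mid hc hd']
    exact ⟨hy, hc, hd'⟩
  · obtain ⟨u1, u2, -⟩ := hm.hψ y hy (by omega) h2
    rw [fold, if_neg (by omega), if_pos hd']
    exact ⟨u1, by omega, by omega⟩

theorem fold_step (hm : Match a O h c L d φ ψ) (hd : 2 * L < d)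
    (hO : ∀ g : G, ∀ y ∈ O, g • y ∈ O)
    (hlip : ∀ g, IsGen a g → ∀ y ∈ O, h (g • y) ≤ h y + T ∧ h y ≤ h (g • y) + T)
    {g : G} (hg : IsGen a g) {y : Ω} (hy : y ∈ O) {r : ℕ} (hr : r + T ≤ L)
    (h1 : c < h y + r) (h2 : h y ≤ c + d + r) :
    fold h c d φ ψ (g • fold h c d φ ψ y) = fold h c d φ ψ (g • y) := by
  obtain ⟨l1, l2⟩ := hlip g hg y hy
  rcases le_or_gt (h y) c with hc | hc
  · obtain ⟨u1, u2, u3⟩ := hm.hφ (g • y) (hO g y hy) (by omega) (by omega)
    rw [show fold h c d φ ψ y = φ y from if_pos hc,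
      ← hm.cφ g hg y hy (by omega) (by omega) (by omega) (by omega)]
    rcases le_or_gt (h (g • y)) c with hc' | hc'
    · rw [fold_mid (by omega) (by omega), fold, if_pos hc']
    · rw [fold, if_neg (by omega), if_pos (by omega), u3, fold_mid hc' (by omega)]
  rcases le_or_gt (h y) (c + d) with hd' | hd'
  · rw [fold_mid hc hd']
  · obtain ⟨u1, u2, u3⟩ := hm.hψ (g • y) (hO g y hy) (by omega) (by omega)
    rw [show fold h c d φ ψ y = ψ y by rw [fold, if_neg (by omega), if_pos hd'],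
      ← hm.cψ g hg y hy (by omega) (by omega) (by omega) (by omega)]
    rcases le_or_gt (h (g • y)) (c + d) with hc' | hc'
    · rw [fold, if_pos (by omega), u3, fold_mid (by omega) hc']
    · rw [fold_mid (by omega) (by omega), fold, if_neg (by omega), if_pos hc']

/-- from two matched windows, a finite model of all relators of length at most `ℓ` -/
theorem periodise (hm : Match a O h c L d φ ψ) (hd : 2 * L < d) (hd' : 2 * T + 1 < d)
    (hO : ∀ g : G, ∀ y ∈ O, g • y ∈ O)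
    (hlip : ∀ g, IsGen a g → ∀ y ∈ O, h (g • y) ≤ h y + T ∧ h y ≤ h (g • y) + T)
    (hfin : {y | y ∈ O ∧ h y ≤ c + d}.Finite) (ℓ : ℕ) (hL : T * (ℓ + 2) ≤ L)
    (R : Set (FreeGroup (Fin k)))
    (hR : ∀ r ∈ R, r.toWord.length ≤ ℓ ∧ FreeGroup.lift a r = 1)
    (hmove : ∃ y ∈ O, h y = c + T + 1 ∧ ∃ s, a s • y ≠ y) :
    ∃ (P : Type w) (_ : Group P) (_ : Finite P) (F : FreeGroup (Fin k) →* P),
      (∀ r ∈ R, F r = 1) ∧ ∃ w, F w ≠ 1 := by
  let M := {y : Ω // y ∈ O ∧ c < h y ∧ h y ≤ c + d}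
  have hT : 2 * T ≤ L := le_trans (by rw [mul_comm]; exact Nat.mul_le_mul_left T (by omega)) hL
  have act : ∀ g, IsGen a g → ∀ y : M, fold h c d φ ψ (g • y.1) ∈ O ∧
      c < h (fold h c d φ ψ (g • y.1)) ∧ h (fold h c d φ ψ (g • y.1)) ≤ c + d := by
    rintro g hg ⟨y, hy, h1, h2⟩
    obtain ⟨l1, l2⟩ := hlip g hg y hy
    dsimp only
    exact fold_mem hm hd (hO g y hy) (by omega) (by omega)
  have inv : ∀ g, IsGen a g → IsGen a g⁻¹ := by
    rintro g ⟨s, rfl | rfl⟩
    exacts [⟨s, .inr rfl⟩, ⟨s, .inl (inv_inv _)⟩]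
  have cancel : ∀ g, IsGen a g → ∀ y : M,
      fold h c d φ ψ (g⁻¹ • fold h c d φ ψ (g • y.1)) = y.1 := by
    rintro g hg ⟨y, hy, h1, h2⟩
    obtain ⟨l1, l2⟩ := hlip g hg y hy
    rw [fold_step hm hd hO hlip (inv g hg) (hO g y hy) (r := T) (by omega) (by omega) (by omega),
      inv_smul_smul, fold_mid h1 h2]
  let σ : Fin k → Equiv.Perm M := fun s =>
    { toFun := fun y => ⟨_, act (a s) ⟨s, .inl rfl⟩ y⟩
      invFun := fun y => ⟨_, act (a s)⁻¹ ⟨s, .inr rfl⟩ y⟩
      left_inv := fun y => Subtype.ext (cancel (a s) ⟨s, .inl rfl⟩ y)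
      right_inv := fun y => Subtype.ext (by
        simpa using cancel (a s)⁻¹ ⟨s, .inr rfl⟩ y) }
  let F := FreeGroup.lift σ
  have hfinM : Finite M := (hfin.subset fun y hy => ⟨hy.1, hy.2.2⟩).to_subtype
  have word : ∀ l : List (Fin k × Bool), l.length ≤ ℓ → ∀ y : M,
      (F (FreeGroup.mk l) y).1 = fold h c d φ ψ (FreeGroup.lift a (FreeGroup.mk l) • y.1) ∧
      c < h (FreeGroup.lift a (FreeGroup.mk l) • y.1) + T * l.length ∧
      h (FreeGroup.lift a (FreeGroup.mk l) • y.1) ≤ c + d + T * l.length := by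
    intro l
    induction l with
    | nil =>
      intro _ y
      simp only [← FreeGroup.one_eq_mk, map_one, one_smul, Equiv.Perm.one_apply,
        fold_mid y.2.2.1 y.2.2.2, true_and]
      exact ⟨by simpa using y.2.2.1, by simpa using y.2.2.2⟩
    | cons p l ih =>
      intro hlen y
      simp only [List.length_cons] at hlen ⊢
      obtain ⟨e, e1, e2⟩ := ih (by omega) y
      have hsplit : FreeGroup.mk (p :: l) = FreeGroup.mk [p] * FreeGroup.mk l := by
        rw [FreeGroup.mul_mk]; rfl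
      have hmul : T * l.length + T ≤ L :=
        le_trans (by rw [← Nat.mul_succ]; exact Nat.mul_le_mul_left T (by omega)) hL
      obtain ⟨s, b⟩ := p
      have hgen : IsGen a (FreeGroup.lift a (FreeGroup.mk [(s, b)])) := by
        cases b
        · exact ⟨s, .inr (by simp)⟩
        · exact ⟨s, .inl (by simp)⟩
      have hF : ∀ z : M, (F (FreeGroup.mk [(s, b)]) z).1 =
          fold h c d φ ψ (FreeGroup.lift a (FreeGroup.mk [(s, b)]) • z.1) := by
        intro z
        cases b <;> simp [F, σ]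
      have hyO := hO (FreeGroup.lift a (FreeGroup.mk l)) y.1 y.2.1
      obtain ⟨l1, l2⟩ := hlip _ hgen _ hyO
      rw [hsplit, map_mul, map_mul, Equiv.Perm.mul_apply, hF, e, mul_smul,
        fold_step hm hd hO hlip hgen hyO hmul e1 e2, Nat.mul_succ]
      exact ⟨rfl, by omega, by omega⟩
  refine ⟨Equiv.Perm M, inferInstance, inferInstance, F, fun r hr => ?_, ?_⟩
  · refine Equiv.ext fun y => Subtype.ext ?_
    rw [← FreeGroup.mk_toWord (x := r), (word _ (hR r hr).1 y).1, FreeGroup.mk_toWord,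
      (hR r hr).2, one_smul, fold_mid y.2.2.1 y.2.2.2]
    rfl
  · obtain ⟨y, hy, hy', s, hs⟩ := hmove
    refine ⟨FreeGroup.of s, fun e => hs ?_⟩
    obtain ⟨l1, l2⟩ := hlip (a s) ⟨s, .inl rfl⟩ y hy
    have h3 := congrArg Subtype.val (DFunLike.congr_fun e (⟨y, hy, by omega, by omega⟩ : M))
    simp only [F, FreeGroup.lift_apply_of, Equiv.Perm.one_apply] at h3
    change fold h c d φ ψ (a s • y) = y at h3
    rwa [fold_mid (by omega) (by omega)] at h3

/-- among infinitely many thin windows two have the same pattern, arbitrarily far apart -/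
theorem exists_match (O : Set Ω) (h : Ω → ℕ) (hO : ∀ g : G, ∀ y ∈ O, g • y ∈ O) (L B : ℕ)
    (hlev : ∀ N, {y | y ∈ O ∧ h y ≤ N}.Finite)
    (hthin : ∀ N, ∃ n, N ≤ n ∧ {y | y ∈ O ∧ n < h y ∧ h y ≤ n + 2 * L}.ncard ≤ B) (D : ℕ) :
    ∃ c d, D ≤ d ∧ ∃ φ ψ : Ω → Ω, Match a O h c L d φ ψ := by
  classical
  let W : ℕ → Set Ω := fun n => {y | y ∈ O ∧ n < h y ∧ h y ≤ n + 2 * L}
  let A : Set ℕ := {n | (W n).ncard ≤ B}
  have hA : A.Infinite := Set.infinite_of_forall_exists_gt fun N => by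
    obtain ⟨n, hn, hn'⟩ := hthin (N + 1)
    exact ⟨n, hn', hn⟩
  have hWfin : ∀ n, (W n).Finite := fun n =>
    (hlev (n + 2 * L)).subset fun y hy => ⟨hy.1, hy.2.2⟩
  have hι : ∀ n : A, Nonempty (W n.1 ↪ Fin B) := fun n => by
    have := (hWfin n.1).fintype
    refine Function.Embedding.nonempty_of_card_le ?_
    rw [Fintype.card_fin, ← Nat.card_eq_fintype_card, Nat.card_coe_set_eq]
    exact n.2
  choose ι hι using fun n : A => (⟨(hι n).some, trivial⟩ : ∃ _ : W n.1 ↪ Fin B, True)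
  let patt : A → Set (Fin B × Fin (2 * L + 1)) × Set (Fin k × Fin B × Fin B) := fun n =>
    ({p | ∃ y : W n.1, ι n y = p.1 ∧ h y.1 = n.1 + p.2.val},
      {p | ∃ y y' : W n.1, ι n y = p.2.1 ∧ ι n y' = p.2.2 ∧ a p.1 • y.1 = y'.1})
  have : Infinite A := hA.to_subtype
  obtain ⟨P, hP⟩ := Finite.exists_infinite_fiber patt
  have hPinf : (patt ⁻¹' {P}).Infinite := Set.infinite_coe_iff.1 hP
  obtain ⟨i, hi⟩ := hPinf.nonempty
  obtain ⟨j, hj, hij⟩ : ∃ j ∈ patt ⁻¹' {P}, i.1 + D ≤ j.1 := by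
    obtain ⟨_, ⟨j, hj, rfl⟩, hlt⟩ :=
      (hPinf.image (Subtype.val_injective.injOn)).exists_gt (i.1 + D)
    exact ⟨j, hj, hlt.le⟩
  have e : patt i = patt j := hi.trans hj.symm
  obtain ⟨d, hd⟩ := Nat.le.dest (show i.1 ≤ j.1 by omega)
  -- the bijection between two windows with the same pattern
  have find : ∀ n m : A, patt n = patt m → ∀ y : W n.1,
      ∃ z : W m.1, ι m z = ι n y ∧ h z.1 + n.1 = h y.1 + m.1 := by
    intro n m e y
    obtain ⟨yO, y1, y2⟩ := y.2
    have hmem : (ι n y, (⟨h y.1 - n.1, by omega⟩ : Fin (2 * L + 1))) ∈ (patt n).1 :=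
      ⟨y, rfl, by simp only; omega⟩
    rw [e] at hmem
    obtain ⟨z, hz, hz'⟩ := hmem
    exact ⟨z, hz, by simp only at hz'; omega⟩
  have compat : ∀ n m : A, patt n = patt m → ∀ g, IsGen a g → ∀ (y y' : W n.1) (z z' : W m.1),
      ι m z = ι n y → ι m z' = ι n y' → g • y.1 = y'.1 → g • z.1 = z'.1 := by
    intro n m e g hg y y' z z' hz hz' hgy
    have key : ∀ s (y y' : W n.1) (z z' : W m.1), ι m z = ι n y → ι m z' = ι n y' →
        a s • y.1 = y'.1 → a s • z.1 = z'.1 := by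
      intro s y y' z z' hz hz' hgy
      have hmem : (s, ι n y, ι n y') ∈ (patt n).2 := ⟨y, y', rfl, rfl, hgy⟩
      rw [e] at hmem
      obtain ⟨u, u', hu, hu', huu⟩ := hmem
      rw [(ι m).injective (hz.trans hu.symm), (ι m).injective (hz'.trans hu'.symm)]
      exact huu
    obtain ⟨s, rfl | rfl⟩ := hg
    · exact key s y y' z z' hz hz' hgy
    · rw [inv_smul_eq_iff] at hgy ⊢
      exact (key s y' y z' z hz' hz hgy.symm).symm
  choose f hf hf' using find i j e
  choose f' hf1 hf2 using find j i e.symm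
  let φ : Ω → Ω := fun y => if hy : y ∈ W i.1 then (f ⟨y, hy⟩).1 else y
  let ψ : Ω → Ω := fun y => if hy : y ∈ W j.1 then (f' ⟨y, hy⟩).1 else y
  have hφd : ∀ y (hy : y ∈ W i.1), φ y = (f ⟨y, hy⟩).1 := fun y hy => dif_pos hy
  have hψd : ∀ y (hy : y ∈ W j.1), ψ y = (f' ⟨y, hy⟩).1 := fun y hy => dif_pos hy
  refine ⟨i.1 + L, d, by omega, φ, ψ, ⟨fun y hy h1 h2 => ?_, fun y hy h1 h2 => ?_,
    fun g hg y hy h1 h2 h3 h4 => ?_, fun g hg y hy h1 h2 h3 h4 => ?_⟩⟩
  · have hy' : y ∈ W i.1 := ⟨hy, by omega, by omega⟩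
    have u : h (f ⟨y, hy'⟩).1 + i.1 = h y + j.1 := hf' ⟨y, hy'⟩
    rw [hφd y hy', hψd _ (f ⟨y, hy'⟩).2]
    refine ⟨(f ⟨y, hy'⟩).2.1, by omega, ?_⟩
    exact congrArg Subtype.val ((ι i).injective ((hf1 (f ⟨y, hy'⟩)).trans (hf ⟨y, hy'⟩)))
  · have hy' : y ∈ W j.1 := ⟨hy, by omega, by omega⟩
    have u : h (f' ⟨y, hy'⟩).1 + j.1 = h y + i.1 := hf2 ⟨y, hy'⟩
    rw [hψd y hy', hφd _ (f' ⟨y, hy'⟩).2]
    refine ⟨(f' ⟨y, hy'⟩).2.1, by omega, ?_⟩
    exact congrArg Subtype.val ((ι j).injective ((hf (f' ⟨y, hy'⟩)).trans (hf1 ⟨y, hy'⟩)))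
  · have hy' : y ∈ W i.1 := ⟨hy, by omega, by omega⟩
    have hgy : g • y ∈ W i.1 := ⟨hO g y hy, by omega, by omega⟩
    rw [hφd y hy', hφd _ hgy]
    exact (compat i j e g hg ⟨y, hy'⟩ ⟨_, hgy⟩ _ _ (hf _) (hf _) rfl).symm
  · have hy' : y ∈ W j.1 := ⟨hy, by omega, by omega⟩
    have hgy : g • y ∈ W j.1 := ⟨hO g y hy, by omega, by omega⟩
    rw [hψd y hy', hψd _ hgy]
    exact (compat j i e.symm g hg ⟨y, hy'⟩ ⟨_, hgy⟩ _ _ (hf1 _) (hf1 _) rfl).symm

end Periodise

section Main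

variable {G : Type*} [Group G] {Ω : Type*} [MulAction G Ω]

/-- a finitely presented group with a nontrivial orbit whose Schreier graph has thin shells
has a nontrivial finite quotient -/
theorem hasFiniteQuotient_of_thin [Group.IsFinitelyPresented G] {S : Set G} (hS : S.Finite)
    (hgen : closure S = ⊤) (x : Ω) (hx : ∃ g : G, g • x ≠ x)
    (hthin : ∀ L, ∃ B, ∀ N, ∃ n, N ≤ n ∧ (ball S x (n + L) \ ball S x n).ncard ≤ B) :
    HasFiniteQuotient G := by
  classical
  by_cases hfin : (MulAction.orbit G x).Finite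
  · have := hfin.to_subtype
    obtain ⟨g, hg⟩ := hx
    refine hasFiniteQuotient_of_hom (MulAction.toPermHom G (MulAction.orbit G x))
      ⟨g, fun e => hg ?_⟩
    simpa using congrArg Subtype.val
      (DFunLike.congr_fun e ⟨x, MulAction.mem_orbit_self x⟩)
  obtain ⟨k, π, hπ, R, hR, hker⟩ := (inferInstance : Group.IsFinitelyPresented G).out
  let a : Fin k → G := fun s => π (FreeGroup.of s)
  have ha : FreeGroup.lift a = π := FreeGroup.ext_hom _ _ fun s => FreeGroup.lift_apply_of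
  choose wd hwd hwd' using fun s => exists_word hgen (a s)
  let T : ℕ := Finset.univ.sup fun s => (wd s).length
  have hwdT : ∀ s, (wd s).length ≤ T := fun s =>
    Finset.le_sup (f := fun s => (wd s).length) (Finset.mem_univ s)
  let O : Set Ω := MulAction.orbit G x
  have hO : ∀ g : G, ∀ y ∈ O, g • y ∈ O := fun g y hy =>
    MulAction.mem_orbit_of_mem_orbit g hy
  have hexi : ∀ y ∈ O, ∃ n, y ∈ ball S x n := fun y hy => exists_ball hgen hy
  let h : Ω → ℕ := fun y => sInf {n | y ∈ ball S x n}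
  have hmem : ∀ y ∈ O, y ∈ ball S x (h y) := fun y hy => Nat.sInf_mem (hexi y hy)
  have hle : ∀ {y n}, y ∈ ball S x n → h y ≤ n := fun hy => Nat.sInf_le hy
  have hlev : ∀ N, {y | y ∈ O ∧ h y ≤ N}.Finite := fun N =>
    (ball_finite hS N).subset fun y hy => ball_mono hy.2 (hmem y hy.1)
  have hlip1 : ∀ g, IsGen a g → ∀ y ∈ O, h (g • y) ≤ h y + T := by
    rintro g ⟨s, rfl | rfl⟩ y hy
    · have := hle (ball_smul (hmem y hy) (hwd s))
      rw [hwd'] at this
      have := hwdT s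
      omega
    · have := hle (ball_smul (hmem y hy) (l := ((wd s).map fun b => b⁻¹).reverse) fun b hb => by
        obtain ⟨u, hu, rfl⟩ := List.mem_map.1 (List.mem_reverse.1 hb)
        rw [inv_inv]
        exact (hwd s u hu).symm)
      rw [← List.prod_inv_reverse, hwd', List.length_reverse, List.length_map] at this
      have := hwdT s
      omega
  have hlip : ∀ g, IsGen a g → ∀ y ∈ O, h (g • y) ≤ h y + T ∧ h y ≤ h (g • y) + T := by
    intro g hg y hy
    refine ⟨hlip1 g hg y hy, ?_⟩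
    have hg' : IsGen a g⁻¹ := by
      obtain ⟨s, rfl | rfl⟩ := hg
      exacts [⟨s, .inr rfl⟩, ⟨s, .inl (inv_inv _)⟩]
    simpa using hlip1 g⁻¹ hg' (g • y) (hO g y hy)
  have hlevel : ∀ n, ∃ y ∈ O, h y = n + 1 := by
    intro n
    by_contra hcon
    push Not at hcon
    apply hfin
    refine (ball_finite hS n).subset fun y hy => ball_stable (n := n) (fun z hz => ?_) _ (hmem y hy)
    have hzO : z ∈ O := by
      obtain ⟨l, -, -, rfl⟩ := hz
      exact MulAction.mem_orbit x _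
    have h1 := hle hz
    have h2 := hcon z hzO
    exact ball_mono (by omega) (hmem z hzO)
  let ℓ : ℕ := hR.toFinset.sup fun r => r.toWord.length
  let L : ℕ := T * (ℓ + 2)
  obtain ⟨B, hB⟩ := hthin (2 * L)
  have hthin' : ∀ N, ∃ n, N ≤ n ∧ {y | y ∈ O ∧ n < h y ∧ h y ≤ n + 2 * L}.ncard ≤ B := by
    intro N
    obtain ⟨n, hn, hn'⟩ := hB N
    refine ⟨n, hn, le_trans (Set.ncard_le_ncard ?_ ((ball_finite hS _).sdiff)) hn'⟩
    intro y hy
    exact ⟨ball_mono hy.2.2 (hmem y hy.1), fun hy' => by have := hle hy'; have := hy.2.1; omega⟩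
  obtain ⟨c, d, hd, φ, ψ, hm⟩ :=
    exists_match (a := a) O h hO L B hlev hthin' (2 * L + 2 * T + 2)
  obtain ⟨y, hy, hy'⟩ := hlevel (c + T)
  have hmove : ∃ s, a s • y ≠ y := by
    by_contra hcon
    push Not at hcon
    apply hfin
    have hstab : ∀ w, FreeGroup.lift a w • y = y := by
      intro w
      induction w using FreeGroup.induction_on with
      | C1 => simp
      | of s => simpa using hcon s
      | inv_of s _ => rw [map_inv, FreeGroup.lift_apply_of, inv_smul_eq_iff, hcon]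
      | mul u v hu hv => rw [map_mul, mul_smul, hv, hu]
    refine (Set.finite_singleton y).subset fun z hz => ?_
    obtain ⟨g, rfl⟩ := hz
    obtain ⟨g₀, hg₀⟩ := hy
    obtain ⟨w, hw⟩ := hπ (g * g₀⁻¹)
    have := hstab w
    rw [ha, hw, ← hg₀] at this
    simpa [mul_smul, ← hg₀] using this
  have hRr : ∀ r ∈ R, r.toWord.length ≤ ℓ ∧ FreeGroup.lift a r = 1 := fun r hr =>
    ⟨Finset.le_sup (f := fun r => r.toWord.length) (hR.mem_toFinset.2 hr), by
      rw [ha, ← MonoidHom.mem_ker, ← hker]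
      exact subset_normalClosure hr⟩
  obtain ⟨P, _, _, F, hF, w, hw⟩ := periodise hm (by omega) (by omega) hO hlip (hlev _) ℓ le_rfl
    R hRr ⟨y, hy, hy', hmove⟩
  have hkerF : π.ker ≤ F.ker := by
    rw [← hker]
    exact normalClosure_le_normal fun r hr => hF r hr
  refine hasFiniteQuotient_of_hom (π.liftOfSurjective hπ ⟨F, hkerF⟩) ⟨π w, ?_⟩
  rwa [MonoidHom.liftOfRightInverse_comp_apply]

theorem thin_of_linear {S : Set G} (hS : S.Finite) (x : Ω)
    (h : ∃ C : ℕ, ∀ N, ∃ n, N ≤ n ∧ (ball S x n).ncard ≤ C * n) :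
    ∀ L, ∃ B, ∀ N, ∃ n, N ≤ n ∧ (ball S x (n + L) \ ball S x n).ncard ≤ B := by
  obtain ⟨C, hC⟩ := h
  intro L
  refine ⟨2 * C * L, fun N => ?_⟩
  rcases Nat.eq_zero_or_pos L with rfl | hL
  · exact ⟨N, le_rfl, by simp⟩
  obtain ⟨n, hn, hn'⟩ := hC (2 * N + 2 * L + 1)
  by_contra hcon
  push Not at hcon
  have key : ∀ K, K * (2 * C * L + 1) ≤ (ball S x (N + K * L)).ncard := by
    intro K
    induction K with
    | zero => simp
    | succ K ih =>
      have h1 := hcon (N + K * L) (Nat.le_add_right _ _)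
      have h2 := Set.ncard_sdiff_add_ncard_of_subset
        (ball_mono (S := S) (x := x) (Nat.le_add_right (N + K * L) L)) (ball_finite hS _)
      rw [show N + (K + 1) * L = N + K * L + L by ring]
      nlinarith
  let K := (n - N) / L
  have h1 : K * L ≤ n - N := Nat.div_mul_le_self _ _
  have h2 : n - N < K * L + L := Nat.lt_div_mul_add hL
  have h3 := (key K).trans ((Set.ncard_le_ncard (ball_mono (show N + K * L ≤ n by omega))
    (ball_finite hS _)).trans hn')
  have h4 : n ≤ 2 * (K * L) := by omega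
  have h5 : C * n ≤ C * (2 * (K * L)) := Nat.mul_le_mul_left C h4
  have h6 : 1 ≤ K := by
    by_contra h7
    simp only [not_le, Nat.lt_one_iff] at h7
    rw [h7] at h4
    omega
  nlinarith

theorem superlinear [Group.IsFinitelyPresented G] [IsSimpleGroup G] [Infinite G] {S : Set G}
    (hS : S.Finite) (hgen : closure S = ⊤) (x : Ω) (hx : ∃ g : G, g • x ≠ x) (C : ℕ) :
    ∃ N, ∀ n, N ≤ n → C * n < (ball S x n).ncard := by
  by_contra hcon
  push Not at hcon
  obtain ⟨K, hK, hKf, hKt⟩ :=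
    hasFiniteQuotient_of_thin hS hgen x hx (thin_of_linear hS x ⟨C, hcon⟩)
  rcases hK.eq_bot_or_eq_top with rfl | h
  · have : Finite (G ⧸ (⊥ : Subgroup G)) := Subgroup.finite_quotient_of_finiteIndex
    have : Finite G := Finite.of_equiv _ (QuotientGroup.quotientBot (G := G)).toEquiv
    exact not_finite G
  · exact hKt h

theorem subgroups_finite {Γ : Type*} [Group Γ] [MulAction Γ Ω] [FaithfulSMul Γ Ω] {S : Set Γ}
    (hS : S.Finite) (hgen : closure S = ⊤)
    (hlin : ∀ x : Ω, ∃ C : ℕ, ∀ n, 0 < n → (ball S x n).ncard ≤ C * n)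
    (H : Subgroup Γ) [Group.IsFinitelyPresented H] [IsSimpleGroup H] : Finite H := by
  rcases finite_or_infinite H with hf | hf
  · exact hf
  exfalso
  obtain ⟨x, hx⟩ : ∃ x : Ω, ∃ g : H, g • x ≠ x := by
    obtain ⟨g, hg⟩ := exists_ne (1 : H)
    by_contra hcon
    push Not at hcon
    exact hg (Subtype.ext (FaithfulSMul.eq_of_smul_eq_smul fun y : Ω => by
      rw [OneMemClass.coe_one, one_smul]
      exact hcon y g))
  obtain ⟨k, π, hπ, -⟩ := (inferInstance : Group.IsFinitelyPresented H).out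
  choose wd hwd hwd' using fun s => exists_word hgen (π (FreeGroup.of s) : Γ)
  let T : ℕ := (Finset.univ.sup fun s => (wd s).length) + 1
  have hgenH : closure (Set.range fun s => π (FreeGroup.of s)) = ⊤ := by
    show closure (Set.range (π ∘ FreeGroup.of)) = ⊤
    rw [Set.range_comp, ← MonoidHom.map_closure, FreeGroup.closure_range_of,
      Subgroup.map_top_of_surjective _ hπ]
  have hword : ∀ l : List H, (∀ b ∈ l, b ∈ Set.range (fun s => π (FreeGroup.of s)) ∨
      b⁻¹ ∈ Set.range fun s => π (FreeGroup.of s)) →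
      ∃ l' : List Γ, l'.length ≤ T * l.length ∧ (∀ b ∈ l', b ∈ S ∨ b⁻¹ ∈ S) ∧
        l'.prod = (l.prod : Γ) := by
    intro l
    induction l with
    | nil => exact fun _ => ⟨[], by simp, by simp, by simp⟩
    | cons b l ih =>
      intro hl
      obtain ⟨l', h1, h2, h3⟩ := ih fun u hu => hl u (List.mem_cons_of_mem _ hu)
      obtain ⟨u, hu1, hu2, hu3⟩ : ∃ u : List Γ, u.length ≤ T ∧ (∀ v ∈ u, v ∈ S ∨ v⁻¹ ∈ S) ∧
          u.prod = (b : Γ) := by
        rcases hl b (by simp) with ⟨s, rfl⟩ | ⟨s, hs⟩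
        · exact ⟨wd s, (Finset.le_sup (f := fun s => (wd s).length) (Finset.mem_univ s)).trans
            (Nat.le_succ _), hwd s, hwd' s⟩
        · refine ⟨((wd s).map fun v => v⁻¹).reverse, ?_, fun v hv => ?_, ?_⟩
          · rw [List.length_reverse, List.length_map]
            exact (Finset.le_sup (f := fun s => (wd s).length) (Finset.mem_univ s)).trans
              (Nat.le_succ _)
          · obtain ⟨u, hu, rfl⟩ := List.mem_map.1 (List.mem_reverse.1 hv)
            rw [inv_inv]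
            exact (hwd s u hu).symm
          · rw [← List.prod_inv_reverse, hwd', show (π (FreeGroup.of s) : H) = b⁻¹ from hs,
              Subgroup.coe_inv, inv_inv]
      refine ⟨u ++ l', ?_, fun v hv => ?_, ?_⟩
      · simp only [List.length_append, List.length_cons, Nat.mul_succ]
        omega
      · rcases List.mem_append.1 hv with hv | hv
        exacts [hu2 v hv, h2 v hv]
      · rw [List.prod_append, hu3, h3, List.prod_cons, Subgroup.coe_mul]
  obtain ⟨C, hC⟩ := hlin x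
  obtain ⟨N, hN⟩ := superlinear (Set.finite_range fun s => π (FreeGroup.of s)) hgenH x hx (C * T)
  have hsub : ball (Set.range fun s => π (FreeGroup.of s)) x (N + 1) ⊆
      ball S x (T * (N + 1)) := by
    rintro y ⟨l, h1, h2, rfl⟩
    obtain ⟨l', h3, h4, h5⟩ := hword l h2
    exact ⟨l', h3.trans (Nat.mul_le_mul_left T h1), h4, by rw [h5]; rfl⟩
  have := ((hN (N + 1) (Nat.le_succ N)).trans_le
    (Set.ncard_le_ncard hsub (ball_finite hS _))).trans_le (hC _ (by positivity))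
  rw [mul_assoc] at this
  exact lt_irrefl _ this

end Main

end Vale.Agent.P196
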